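import Vale.Agent.P132.Scalar.Proj

/-!
# Fixed bicentralizer elements are scalars
-/

namespace Vale.Agent.P132.Scalar

open scoped InnerProductSpace Topology ComplexOrder ComplexConjugate
open Filter

universe u

variable {H : Type u} [NormedAddCommGroup H] [InnerProductSpace ℂ H] [CompleteSpace H]
  {M : VonNeumannAlgebra H} {Ω : H}

omit [CompleteSpace H] in
theorem vecState_apply (ξ : H) (x : H →L[ℂ] H) : vecState ξ x = ⟪ξ, x ξ⟫_ℂ := rfl

theorem inner_star (x : H →L[ℂ] H) (v w : H) : ⟪v, star x w⟫_ℂ = ⟪x v, w⟫_ℂ := by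
  rw [ContinuousLinearMap.star_eq_adjoint, ContinuousLinearMap.adjoint_inner_right]

theorem star_isom_apply {v : H →L[ℂ] H} (h : star v * v = 1) (x : H) : star v (v x) = x :=
  congrArg (fun f : H →L[ℂ] H => f x) h

theorem norm_isom_apply {v : H →L[ℂ] H} (h : star v * v = 1) (x : H) : ‖v x‖ = ‖x‖ := by
  rw [norm_eq_sqrt_re_inner (𝕜 := ℂ), norm_eq_sqrt_re_inner (𝕜 := ℂ), ← inner_star,
    star_isom_apply h]

theorem norm_isom_le {v : H →L[ℂ] H} (h : star v * v = 1) : ‖v‖ ≤ 1 :=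
  v.opNorm_le_bound zero_le_one fun x => by simp [norm_isom_apply h]

theorem norm_mul_le_of_le_one {a b : H →L[ℂ] H} (ha : ‖a‖ ≤ 1) : ‖a * b‖ ≤ ‖b‖ :=
  (norm_mul_le a b).trans (mul_le_of_le_one_left (norm_nonneg _) ha)

theorem norm_mul_le_of_le_one' {a b : H →L[ℂ] H} (hb : ‖b‖ ≤ 1) : ‖a * b‖ ≤ ‖a‖ :=
  (norm_mul_le a b).trans (mul_le_of_le_one_right (norm_nonneg _) hb)

theorem isState_vecState {ξ : H} (hξ : ‖ξ‖ = 1) (hsep : ∀ y ∈ M, y ξ = 0 → y = 0) :
    IsState M (vecState ξ) where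
  cont δ hδ := by
    refine ⟨{ξ}, δ, hδ, fun y _ _ h => ?_⟩
    have h1 := norm_inner_le_norm (𝕜 := ℂ) ξ (y ξ)
    rw [hξ, one_mul] at h1
    exact h1.trans (h ξ (Finset.mem_singleton_self ξ))
  pos y _ := by
    rw [vecState_apply, mul_apply_eq_comp, inner_star, inner_self_eq_norm_sq_to_K]
    have h := Complex.zero_le_real.2 (sq_nonneg ‖y ξ‖)
    rw [Complex.ofReal_pow] at h
    exact h
  unital := by
    rw [vecState_apply, one_apply_eq_self, inner_self_eq_norm_sq_to_K, hξ]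
    simp
  faithful y hy h := by
    rw [vecState_apply, mul_apply_eq_comp, inner_star, inner_self_eq_zero] at h
    exact hsep y hy h

/-- An isometry of weight `φ p` with range under `p`. -/
theorem exists_base (hcs : IsCS M Ω) (h3 : IsTypeIII M) (hh : IsHomogeneous M)
    {p : H →L[ℂ] H} (hp : CentProj M Ω p) {δ : ℝ} (hδ : 0 < δ) :
    ∃ v, HasWeight M Ω v (‖p Ω‖ ^ 2) δ ∧ p * v = v := by
  obtain ⟨S, hS, hS1, hS2⟩ := h3.equiv_one p hp.mem hp.proj hp.ne_zero
  set r := ‖p Ω‖ with hr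
  have hr0 : 0 < r := norm_pos_iff.2 fun h => hp.ne_zero (hcs.separating p hp.mem h)
  have hpS : p * S = S := by rw [← hS2, mul_assoc, hS1, mul_one]
  have hn : ‖star S Ω‖ = r := by
    rw [← norm_isom_apply hS1 (star S Ω)]
    exact congrArg (fun f : H →L[ℂ] H => ‖f Ω‖) hS2
  set ξ := ((r⁻¹ : ℝ) : ℂ) • star S Ω with hξ
  have hξn : ‖ξ‖ = 1 := by
    rw [hξ, norm_smul, Complex.norm_real, Real.norm_of_nonneg (inv_nonneg.2 hr0.le), hn,
      inv_mul_cancel₀ hr0.ne']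
  have hsep : ∀ y ∈ M, y ξ = 0 → y = 0 := by
    intro y hy h
    rw [hξ, map_smul, smul_eq_zero, or_iff_right (by simpa using hr0.ne')] at h
    have h1 := hcs.separating (y * star S) (mul_mem hy (star_mem hS)) h
    calc y = y * star S * S := by rw [mul_assoc, hS1, mul_one]
      _ = 0 := by rw [h1, zero_mul]
  obtain ⟨u, hu, hu1, -, hu2⟩ := hh _ _ (isState_vecState hcs.norm hcs.separating)
    (isState_vecState (M := M) hξn hsep) (δ / r ^ 2) (by positivity)
  have hv1 : star (S * u) * (S * u) = 1 := by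
    rw [star_mul, mul_assoc, ← mul_assoc (star S), hS1, one_mul, hu1]
  refine ⟨S * u, ⟨mul_mem hS hu, hv1, fun y hy => ?_⟩, by rw [← mul_assoc, hpS]⟩
  have hz : u * y * S ∈ M := mul_mem (mul_mem hu hy) hS
  have e1 : ⟪Ω, (S * u) (y Ω)⟫_ℂ = ((r ^ 2 : ℝ) : ℂ) * vecState ξ (u * y * S) := by
    have e2 : ⟪Ω, (S * u) (y Ω)⟫_ℂ = ⟪star S Ω, (u * y * S) (star S Ω)⟫_ℂ := by
      conv_lhs => rw [← hpS]
      have h := hp.tr (S * u * y) (mul_mem (mul_mem hS hu) hy)
      simp only [mul_apply_eq_comp] at h ⊢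
      rw [h, show p Ω = S (star S Ω) from congrArg (fun f : H →L[ℂ] H => f Ω) hS2.symm,
        ← inner_star, star_star]
    rw [e2, vecState_apply, hξ, map_smul, inner_smul_left, inner_smul_right, Complex.conj_ofReal,
      ← mul_assoc, ← mul_assoc, ← Complex.ofReal_mul, ← Complex.ofReal_mul,
      show r ^ 2 * r⁻¹ * r⁻¹ = 1 by field_simp, Complex.ofReal_one, one_mul]
  have e3 : ⟪Ω, y ((S * u) Ω)⟫_ℂ = vecState Ω (star u * (u * y * S) * u) := by
    rw [show star u * (u * y * S) * u = star u * u * (y * (S * u)) by noncomm_ring, hu1, one_mul]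
    rfl
  rw [e1, e3, ← mul_sub, norm_mul, Complex.norm_real, Real.norm_of_nonneg (sq_nonneg r),
    norm_sub_rev]
  have h := hu2 (u * y * S) hz
  have hnz : ‖u * y * S‖ ≤ ‖y‖ :=
    (norm_mul_le_of_le_one' (norm_isom_le hS1)).trans (norm_mul_le_of_le_one (norm_isom_le hu1))
  calc r ^ 2 * _ ≤ r ^ 2 * (δ / r ^ 2 * ‖u * y * S‖) := by gcongr
    _ = δ * ‖u * y * S‖ := by field_simp
    _ ≤ δ * ‖y‖ := by gcongr

theorem hasWeight_mul {v w : H →L[ℂ] H} {c e δ δ' : ℝ} (hc : 0 ≤ c) (hv : HasWeight M Ω v c δ)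
    (hw : HasWeight M Ω w e δ') (hδ : 0 ≤ δ) (hδ' : 0 ≤ δ') :
    HasWeight M Ω (v * w) (c * e) (δ + c * δ') := by
  obtain ⟨hvM, hv1, hv2⟩ := hv
  obtain ⟨hwM, hw1, hw2⟩ := hw
  refine ⟨mul_mem hvM hwM, by rw [star_mul, mul_assoc, ← mul_assoc (star v), hv1, one_mul, hw1],
    fun y hy => ?_⟩
  have h1 := (hv2 (w * y) (mul_mem hwM hy)).trans
    (mul_le_mul_of_nonneg_left (norm_mul_le_of_le_one (norm_isom_le hw1)) hδ)
  have h2 := (hw2 (y * v) (mul_mem hy hvM)).trans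
    (mul_le_mul_of_nonneg_left (norm_mul_le_of_le_one' (norm_isom_le hv1)) hδ')
  simp only [mul_apply_eq_comp] at h1 h2 ⊢
  have h3 := mul_le_mul_of_nonneg_left h2 hc
  refine (norm_sub_le_norm_sub_add_norm_sub _ ((c : ℂ) * ⟪Ω, w (y (v Ω))⟫_ℂ) _).trans ?_
  rw [add_mul, mul_assoc]
  refine add_le_add h1 ?_
  rwa [Complex.ofReal_mul, mul_assoc, ← mul_sub, norm_mul, Complex.norm_real,
    Real.norm_of_nonneg hc]

theorem norm_sq_proj_le (hcs : IsCS M Ω) {p : H →L[ℂ] H} (hp : IsStarProjection p) :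
    ‖p Ω‖ ^ 2 ≤ 1 := by
  have h1 : ⟪Ω, p Ω⟫_ℂ = ((‖p Ω‖ ^ 2 : ℝ) : ℂ) := inner_proj_self hp Ω
  have h2 := norm_inner_le_norm (𝕜 := ℂ) Ω (p Ω)
  rw [h1, Complex.norm_real, Real.norm_of_nonneg (sq_nonneg _), hcs.norm, one_mul] at h2
  nlinarith [norm_nonneg (p Ω)]

/-- Isometries of every smaller weight with range under `p`. -/
theorem exists_under (hcs : IsCS M Ω) (h3 : IsTypeIII M) (hh : IsHomogeneous M)
    (hW : ∀ c δ : ℝ, 0 < c → c ≤ 1 → 0 < δ → ∃ v, HasWeight M Ω v c δ)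
    {p : H →L[ℂ] H} (hp : CentProj M Ω p) {e δ : ℝ} (he : 0 < e) (he1 : e ≤ 1) (hδ : 0 < δ) :
    ∃ v, HasWeight M Ω v (‖p Ω‖ ^ 2 * e) δ ∧ p * v = v := by
  obtain ⟨v, hv, hpv⟩ := exists_base hcs h3 hh hp (half_pos hδ)
  obtain ⟨w, hw⟩ := hW e (δ / 2) he he1 (half_pos hδ)
  refine ⟨v * w, ?_, by rw [← mul_assoc, hpv]⟩
  obtain ⟨h1, h2, h4⟩ := hasWeight_mul (sq_nonneg _) hv hw (half_pos hδ).le (half_pos hδ).le
  refine ⟨h1, h2, fun y hy => (h4 y hy).trans (mul_le_mul_of_nonneg_right ?_ (norm_nonneg _))⟩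
  have := mul_le_of_le_one_left (half_pos hδ).le (norm_sq_proj_le hcs hp.proj)
  linarith

/-- `w v*` centralises for isometries of equal weight. -/
theorem centralises_mul_star {v w : H →L[ℂ] H} {c δ : ℝ} (hδ : 0 ≤ δ) (hv : HasWeight M Ω v c δ)
    (hw : HasWeight M Ω w c δ) : Centralises M (vecState Ω) (w * star v) (2 * δ) := by
  obtain ⟨hvM, hv1, hv2⟩ := hv
  obtain ⟨hwM, hw1, hw2⟩ := hw
  intro y hy
  have hv' : ‖star v‖ ≤ 1 := by rw [norm_star]; exact norm_isom_le hv1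
  have h1 := (hw2 (star v * y) (mul_mem (star_mem hvM) hy)).trans
    (mul_le_mul_of_nonneg_left (norm_mul_le_of_le_one hv') hδ)
  have h2 := (hv2 (star (y * w)) (star_mem (mul_mem hy hwM))).trans
    (mul_le_mul_of_nonneg_left
      ((norm_star _).trans_le (norm_mul_le_of_le_one' (norm_isom_le hw1))) hδ)
  rw [← Complex.norm_conj, map_sub, map_mul, Complex.conj_ofReal, inner_conj_symm,
    inner_conj_symm, ← inner_star, ← inner_star, ← inner_star, ← inner_star, star_star] at h2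
  simp only [mul_apply_eq_comp] at h1 h2
  simp only [vecState_apply, mul_apply_eq_comp]
  refine (norm_sub_le_norm_sub_add_norm_sub _ ((c : ℂ) * ⟪Ω, star v (y (w Ω))⟫_ℂ) _).trans ?_
  rw [two_mul, add_mul]
  refine add_le_add h2 ?_
  rwa [norm_sub_rev]

/-- The element `f` with a nonzero fixed element where it is one and one where it is zero. -/
theorem contradiction_of_separated (D : ModData M Ω) (hcs : IsCS M Ω) (h3 : IsTypeIII M)
    (hh : IsHomogeneous M)
    (hW : ∀ c δ : ℝ, 0 < c → c ≤ 1 → 0 < δ → ∃ v, HasWeight M Ω v c δ)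
    (hfix : ∀ a, InBicentralizer M (vecState Ω) a → ∀ t, D.U t (a Ω) = a Ω)
    {f b e : H →L[ℂ] H} (hf : InBicentralizer M (vecState Ω) f)
    (hb : InBicentralizer M (vecState Ω) b) (he : InBicentralizer M (vecState Ω) e)
    (hfs : star f = f) (hfb : f * b = b) (hfe : f * e = 0) (hb0 : b ≠ 0) (he0 : e ≠ 0) :
    False := by
  have hp := centProj_rproj D hcs hb.1 hb0 (hfix b hb)
  have hq := centProj_rproj D hcs he.1 he0 (hfix e he)
  have hfp := mul_rproj hfb
  have hfq := mul_rproj_zero hfe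
  set p := rproj b
  set q := rproj e
  have hcp : 0 < ‖p Ω‖ ^ 2 :=
    pow_pos (norm_pos_iff.2 fun h => hp.ne_zero (hcs.separating p hp.mem h)) 2
  have hcq : 0 < ‖q Ω‖ ^ 2 :=
    pow_pos (norm_pos_iff.2 fun h => hq.ne_zero (hcs.separating q hq.mem h)) 2
  set c := ‖p Ω‖ ^ 2 * ‖q Ω‖ ^ 2 with hc
  have hd : ∀ n : ℕ, (0 : ℝ) < 1 / ((n : ℝ) + 1) := fun n => by positivity
  choose v hv hpv using fun n : ℕ =>
    exists_under hcs h3 hh hW hp hcq (norm_sq_proj_le hcs hq.proj) (hd n)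
  choose w hw hqw using fun n : ℕ =>
    exists_under hcs h3 hh hW hq hcp (norm_sq_proj_le hcs hp.proj) (hd n)
  set x : ℕ → H →L[ℂ] H := fun n => w n * star (v n) with hx
  have hxM : ∀ n, x n ∈ M := fun n => mul_mem (hw n).1 (star_mem (hv n).1)
  have hxC : ∀ n, ‖x n‖ ≤ 1 := fun n =>
    (norm_mul_le_of_le_one (norm_isom_le (hw n).2.1)).trans
      ((norm_star _).trans_le (norm_isom_le (hv n).2.1))
  have hxcent : ∀ δ : ℝ, 0 < δ → ∀ᶠ n in atTop, Centralises M (vecState Ω) (x n) δ := by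
    intro δ hδ
    filter_upwards [tendsto_one_div_add_atTop_nhds_zero_nat.eventually
      (Iio_mem_nhds (half_pos hδ))] with n hn y hy
    have hw' := hw n
    rw [mul_comm (‖q Ω‖ ^ 2) (‖p Ω‖ ^ 2)] at hw'
    refine (centralises_mul_star (hd n).le (hv n) hw' y hy).trans ?_
    gcongr
    linarith
  have hlim := hf.2 x hxM ⟨1, hxC⟩ hxcent Ω
  have hfw : ∀ n, f * w n = 0 := fun n => by rw [← hqw n, ← mul_assoc, hfq, zero_mul]
  have hfv : ∀ n, f * v n = v n := fun n => by rw [← hpv n, ← mul_assoc, hfp]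
  have hcomm : ∀ n, (f * x n - x n * f) Ω = -(x n Ω) := fun n => by
    have h1 : x n * f = x n := by
      rw [hx]
      calc w n * star (v n) * f = w n * star (f * v n) := by rw [star_mul, hfs, mul_assoc]
        _ = w n * star (v n) := by rw [hfv n]
    rw [h1, show f * x n = 0 by rw [hx]; simp [← mul_assoc, hfw n], zero_sub, neg_apply]
  have hlow : ∀ n : ℕ, c - 1 / ((n : ℝ) + 1) ≤ ‖(f * x n - x n * f) Ω‖ ^ 2 := by
    intro n
    rw [hcomm n, norm_neg, hx, mul_apply_eq_comp, norm_isom_apply (hw n).2.1]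
    obtain ⟨hvM, hv1, hv2⟩ := hv n
    have h := (hv2 (star (v n)) (star_mem hvM)).trans
      (mul_le_of_le_one_right (hd n).le ((norm_star _).trans_le (norm_isom_le hv1)))
    rw [star_isom_apply hv1, inner_self_eq_norm_sq_to_K, hcs.norm] at h
    rw [show ⟪Ω, v n (star (v n) Ω)⟫_ℂ = ((‖star (v n) Ω‖ ^ 2 : ℝ) : ℂ) by
      rw [← star_star (v n), inner_star, star_star, inner_self_eq_norm_sq_to_K]
      norm_cast] at h
    simp only [RCLike.ofReal_one, one_pow, mul_one, ← Complex.ofReal_sub, Complex.norm_real,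
      Real.norm_eq_abs] at h
    linarith [(abs_le.1 h).1]
  have h0 : Tendsto (fun n : ℕ => ‖(f * x n - x n * f) Ω‖ ^ 2 + 1 / ((n : ℝ) + 1)) atTop
      (𝓝 0) := by
    simpa using (hlim.norm.pow 2).add tendsto_one_div_add_atTop_nhds_zero_nat
  have := ge_of_tendsto h0 (Eventually.of_forall fun n => by linarith [hlow n] :
    ∀ᶠ n : ℕ in atTop, c ≤ _)
  exact absurd this (mul_pos hcp hcq).not_ge

/-- The bicentralizer as a star algebra. -/
def bicAlg (M : VonNeumannAlgebra H) (Ω : H)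
    (h1 : InBicentralizer M (vecState Ω) (1 : H →L[ℂ] H))
    (hs : ∀ a, InBicentralizer M (vecState Ω) a → InBicentralizer M (vecState Ω) (star a))
    (ha : ∀ a, InBicentralizer M (vecState Ω) a → ∀ b, InBicentralizer M (vecState Ω) b →
      InBicentralizer M (vecState Ω) (a + b) ∧ InBicentralizer M (vecState Ω) (a * b))
    (hz : ∀ (z : ℂ) a, InBicentralizer M (vecState Ω) a → InBicentralizer M (vecState Ω) (z • a)) :
    StarSubalgebra ℂ (H →L[ℂ] H) where
  carrier := {a | InBicentralizer M (vecState Ω) a}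
  mul_mem' hx hy := (ha _ hx _ hy).2
  one_mem' := h1
  add_mem' hx hy := (ha _ hx _ hy).1
  zero_mem' := by simpa using hz 0 1 h1
  algebraMap_mem' z := by
    rw [Algebra.algebraMap_eq_smul_one]
    exact hz z 1 h1
  star_mem' hx := hs _ hx

theorem cfc_mem_bic {S : StarSubalgebra ℂ (H →L[ℂ] H)} (hS : IsClosed (S : Set (H →L[ℂ] H)))
    {a : H →L[ℂ] H} (ha : a ∈ S) (f : ℝ → ℝ) : cfc f a ∈ S :=
  cfc_mem (𝕜' := ℂ) (hs := hS) f ha

theorem cfc_ne_zero {a : H →L[ℂ] H} (hsa : IsSelfAdjoint a) {f : ℝ → ℝ} (hf : Continuous f)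
    {x : ℝ} (hx : x ∈ spectrum ℝ a) (hfx : f x ≠ 0) : cfc f a ≠ 0 := by
  intro h
  rw [← cfc_zero ℝ a] at h
  exact hfx (eqOn_of_cfc_eq_cfc h hf.continuousOn continuousOn_const hsa hx)

/-- Scalar: fixed bicentralizer elements are scalars. -/
theorem stmtScalar.{v} (hB : Iface.StmtBic.{v}) (hW : Iface.StmtWeight.{v}) :
    Iface.StmtScalar.{v} := by
  intro H _ _ _ M Ω D hcs h3 hh hfix a ha
  obtain ⟨hcl, h1, hs, hadd, hz, -⟩ := hB H M Ω D hcs
  have hw' := hW H M Ω hcs h3 hh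
  set S := bicAlg M Ω h1 hs hadd hz with hS
  have key : ∀ b : H →L[ℂ] H, InBicentralizer M (vecState Ω) b → IsSelfAdjoint b →
      ∃ c : ℂ, b = c • (1 : H →L[ℂ] H) := by
    intro b hb hsa
    by_contra hne
    simp only [not_exists] at hne
    have hsp : ∀ r : ℝ, ∃ x ∈ spectrum ℝ b, x ≠ r := by
      intro r
      by_contra hr
      simp only [not_exists, not_and, not_not] at hr
      refine hne (r : ℂ) ?_
      rw [CFC.eq_algebraMap_of_spectrum_subset_singleton b r hr hsa,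
        Algebra.algebraMap_eq_smul_one]
      exact (Complex.coe_smul r (1 : H →L[ℂ] H)).symm
    obtain ⟨x₀, hx₀, -⟩ := hsp 0
    obtain ⟨x₁, hx₁, hx01⟩ := hsp x₀
    obtain ⟨s, hs', t, ht', hst⟩ : ∃ s ∈ spectrum ℝ b, ∃ t ∈ spectrum ℝ b, s < t := by
      rcases lt_or_gt_of_ne hx01 with h | h
      · exact ⟨_, hx₁, _, hx₀, h⟩
      · exact ⟨_, hx₀, _, hx₁, h⟩
    obtain ⟨r, hr, rfl⟩ : ∃ r : ℝ, 0 < r ∧ t = s + 3 * r :=
      ⟨(t - s) / 3, by linarith, by ring⟩
    set f : ℝ → ℝ := fun x => max 0 (min 1 ((s + 2 * r - x) / r)) with hfd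
    set f₀ : ℝ → ℝ := fun x => max 0 (s + r - x) with hf₀
    set g₀ : ℝ → ℝ := fun x => max 0 (x - (s + 2 * r)) with hg₀
    have hfc : Continuous f := by fun_prop
    have hf₀c : Continuous f₀ := by fun_prop
    have hg₀c : Continuous g₀ := by fun_prop
    refine contradiction_of_separated D hcs h3 hh hw' hfix
      (f := cfc f b) (b := cfc f₀ b) (e := cfc g₀ b)
      (cfc_mem_bic (S := S) hcl hb f) (cfc_mem_bic (S := S) hcl hb f₀)
      (cfc_mem_bic (S := S) hcl hb g₀) (cfc_predicate f b : IsSelfAdjoint _).star_eq ?_ ?_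
      (cfc_ne_zero hsa hf₀c hs' ?_) (cfc_ne_zero hsa hg₀c ht' ?_)
    · rw [← cfc_mul f f₀ b]
      refine cfc_congr fun x _ => ?_
      simp only [hfd, hf₀]
      rcases le_or_gt (s + r - x) 0 with h | h
      · simp [max_eq_left h]
      · rw [min_eq_left (by rw [le_div_iff₀ hr]; linarith), max_eq_right zero_le_one, one_mul]
    · rw [← cfc_mul f g₀ b, ← cfc_zero ℝ b]
      refine cfc_congr fun x _ => ?_
      simp only [hfd, hg₀, Pi.zero_apply]
      rcases le_or_gt (x - (s + 2 * r)) 0 with h | h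
      · simp [max_eq_left h]
      · rw [max_eq_left ((min_le_right _ _).trans
          (div_nonpos_of_nonpos_of_nonneg (by linarith) hr.le)), zero_mul]
    · simp [hf₀, hr]
    · simp only [hg₀]
      rw [max_eq_right (by linarith)]
      linarith
  obtain ⟨c, hc⟩ := key (a + star a) (hadd a ha _ (hs a ha)).1 (IsSelfAdjoint.add_star_self a)
  have hI : IsSelfAdjoint (Complex.I • (star a - a)) := by
    rw [IsSelfAdjoint, star_smul, star_sub, star_star, Complex.star_def, Complex.conj_I,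
      neg_smul, ← smul_neg, neg_sub]
  obtain ⟨d, hd⟩ := key (Complex.I • (star a - a))
    (hz _ _ (by simpa [sub_eq_add_neg] using (hadd _ (hs a ha) _ (hz (-1) a ha)).1)) hI
  refine ⟨(c + Complex.I * d) / 2, ?_⟩
  rw [div_eq_inv_mul, mul_smul, add_smul, mul_smul, ← hc, ← hd, smul_smul, Complex.I_mul_I]
  module

end Vale.Agent.P132.Scalar
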