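import Vale.Agent.P132.Fixed.Gauss

/-!
# Range projections of fixed elements
-/

namespace Vale.Agent.P132.Scalar

open scoped InnerProductSpace Topology ComplexOrder ComplexConjugate
open Filter MeasureTheory

universe u

variable {H : Type u} [NormedAddCommGroup H] [InnerProductSpace ℂ H] [CompleteSpace H]
  {M : VonNeumannAlgebra H} {Ω : H}

/-- A nonzero projection of `M` in the centralizer of the vector state. -/
structure CentProj (M : VonNeumannAlgebra H) (Ω : H) (p : H →L[ℂ] H) : Prop where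
  mem : p ∈ M
  proj : IsStarProjection p
  ne_zero : p ≠ 0
  tr : ∀ y ∈ M, ⟪Ω, p (y Ω)⟫_ℂ = ⟪Ω, y (p Ω)⟫_ℂ

theorem inner_proj {p : H →L[ℂ] H} (hp : IsStarProjection p) (v w : H) :
    ⟪p v, w⟫_ℂ = ⟪v, p w⟫_ℂ := by
  conv_lhs => rw [← hp.isSelfAdjoint.star_eq, ContinuousLinearMap.star_eq_adjoint,
    ContinuousLinearMap.adjoint_inner_left]

theorem inner_proj_self {p : H →L[ℂ] H} (hp : IsStarProjection p) (v : H) :
    ⟪v, p v⟫_ℂ = ((‖p v‖ ^ 2 : ℝ) : ℂ) := by
  have h : p (p v) = p v := congrArg (fun f : H →L[ℂ] H => f v) hp.isIdempotentElem.eq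
  conv_lhs => rw [← h, ← inner_proj hp]
  rw [inner_self_eq_norm_sq_to_K]
  norm_cast

/-- An element of `M` fixing `Ω` under the modular group commutes with it. -/
theorem commute_U (D : ModData M Ω) (hcs : IsCS M Ω) {b : H →L[ℂ] H} (hb : b ∈ M)
    (hfix : ∀ t, D.U t (b Ω) = b Ω) (t : ℝ) (v : H) : D.U t (b v) = b (D.U t v) := by
  have h0 : D.U t * b * D.U (-t) - b = 0 := by
    refine hcs.separating _ (sub_mem (D.U_conj t b hb) hb) ?_
    simp [D.U_omega, hfix]
  have h1 := congrArg (fun f : H →L[ℂ] H => f (D.U t v)) (sub_eq_zero.1 h0)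
  simpa [Fixed.U_neg_U D] using h1

/-- The projection on the closure of the range. -/
noncomputable def rproj (b : H →L[ℂ] H) : H →L[ℂ] H :=
  (LinearMap.range b.toLinearMap).topologicalClosure.starProjection

theorem isStarProjection_rproj (b : H →L[ℂ] H) : IsStarProjection (rproj b) :=
  isStarProjection_starProjection

theorem rproj_mul (b : H →L[ℂ] H) : rproj b * b = b := by
  ext v
  exact Submodule.starProjection_eq_self_iff.2 (Submodule.le_topologicalClosure _ ⟨v, rfl⟩)

theorem mul_rproj {b x : H →L[ℂ] H} (h : x * b = b) : x * rproj b = rproj b := by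
  ext v
  have hv := Submodule.starProjection_apply_mem
    (LinearMap.range b.toLinearMap).topologicalClosure v
  refine closure_minimal (s := (LinearMap.range b.toLinearMap : Set H)) (t := {z | x z = z})
    ?_ (isClosed_eq x.continuous continuous_id) hv
  rintro _ ⟨w, rfl⟩
  exact congrArg (fun f : H →L[ℂ] H => f w) h

theorem mul_rproj_zero {b x : H →L[ℂ] H} (h : x * b = 0) : x * rproj b = 0 := by
  ext v
  have hv := Submodule.starProjection_apply_mem
    (LinearMap.range b.toLinearMap).topologicalClosure v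
  refine closure_minimal (s := (LinearMap.range b.toLinearMap : Set H)) (t := {z | x z = 0})
    ?_ (isClosed_eq x.continuous continuous_const) hv
  rintro _ ⟨w, rfl⟩
  exact congrArg (fun f : H →L[ℂ] H => f w) h

omit [CompleteSpace H] in
theorem maps_range {b x : H →L[ℂ] H} (h : ∀ v, x (b v) = b (x v)) {z : H}
    (hz : z ∈ (LinearMap.range b.toLinearMap).topologicalClosure) :
    x z ∈ (LinearMap.range b.toLinearMap).topologicalClosure :=
  map_mem_closure x.continuous hz fun _ ⟨w, hw⟩ => ⟨x w, by rw [← hw]; exact (h w).symm⟩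

theorem rproj_mem {b : H →L[ℂ] H} (hb : b ∈ M) : rproj b ∈ M := by
  rw [VonNeumannAlgebra.IsStarProjection.mem_iff (isStarProjection_rproj b)]
  intro y hy
  rw [rproj, Submodule.range_starProjection, Module.End.mem_invtSubmodule]
  intro z hz
  exact maps_range (fun v => congrArg (fun f : H →L[ℂ] H => f v)
    (VonNeumannAlgebra.mem_commutant_iff.1 hy b hb).symm) hz

theorem rproj_fixed (D : ModData M Ω) {b : H →L[ℂ] H}
    (hc : ∀ t v, D.U t (b v) = b (D.U t v)) (t : ℝ) : D.U t (rproj b Ω) = rproj b Ω := by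
  have hv := Submodule.starProjection_apply_mem
    (LinearMap.range b.toLinearMap).topologicalClosure Ω
  refine (Submodule.eq_starProjection_of_mem_of_inner_eq_zero (u := Ω)
    (maps_range (hc t) hv) fun w hw => ?_).symm
  have h1 := Fixed.inner_U_left D t
    (Ω - (LinearMap.range b.toLinearMap).topologicalClosure.starProjection Ω) w
  rw [map_sub, D.U_omega] at h1
  rw [h1]
  exact Submodule.starProjection_inner_eq_zero Ω _ (maps_range (hc (-t)) hw)

theorem integral_gauss_ne_zero : (∫ t : ℝ, gauss 1 0 (t : ℂ)) ≠ 0 := by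
  have h : ∀ t : ℝ, gauss 1 0 (t : ℂ) = ((Real.exp (-(1 / 2) * t ^ 2) : ℝ) : ℂ) := by
    intro t
    rw [Fixed.gauss_eq, Fixed.gam_ofReal, Fixed.ph]
    simp only [Complex.ofReal_zero, mul_zero, zero_mul, neg_zero, Complex.exp_zero, mul_one,
      div_one]
    congr 2
    ring
  simp only [h]
  rw [integral_complex_ofReal, Complex.ofReal_ne_zero, integral_gaussian]
  positivity

/-- `J` fixes the fixed vector of a projection. -/
theorem J_fixed (D : ModData M Ω) {p : H →L[ℂ] H} (hp : p ∈ M) (hpp : IsStarProjection p)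
    (hfix : ∀ t, D.U t (p Ω) = p Ω) : D.J (p Ω) = p Ω := by
  set I := ∫ t : ℝ, gauss 1 0 (t : ℂ) with hI
  set K := ∫ t : ℝ, gauss 1 0 ((t : ℂ) + Complex.I / 2) with hK
  have h := Fixed.kms_sa D hp hpp.isSelfAdjoint.star_eq one_pos 0
  simp only [neg_zero, Fixed.vint, hfix, integral_smul_const, D.J_smul, ← hI, ← hK] at h
  have hI' : conj I ≠ 0 := by simpa using integral_gauss_ne_zero
  have hJ : D.J (p Ω) = ((conj I)⁻¹ * K) • p Ω := by
    rw [mul_smul, ← h, smul_smul, inv_mul_cancel₀ hI', one_smul]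
  set lam := (conj I)⁻¹ * K
  by_cases h0 : p Ω = 0
  · rw [h0, Fixed.J_zero]
  have h1 : ⟪Ω, D.J (p Ω)⟫_ℂ = ⟪p Ω, Ω⟫_ℂ := by
    have := D.J_inner Ω (p Ω)
    rwa [D.J_omega] at this
  rw [hJ, inner_smul_right, inner_proj hpp, inner_proj_self hpp] at h1
  have h2 : lam = 1 := mul_eq_right₀ (by simpa using h0) |>.1 h1
  rw [hJ, h2, one_smul]

theorem centProj_rproj (D : ModData M Ω) (hcs : IsCS M Ω) {b : H →L[ℂ] H} (hb : b ∈ M)
    (h0 : b ≠ 0) (hfix : ∀ t, D.U t (b Ω) = b Ω) : CentProj M Ω (rproj b) where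
  mem := rproj_mem hb
  proj := isStarProjection_rproj b
  ne_zero h := h0 (by rw [← rproj_mul b, h, zero_mul])
  tr y hy := by
    have hp := rproj_mem (M := M) hb
    have hps := isStarProjection_rproj b
    have hJ := J_fixed D hp hps (rproj_fixed D (commute_U D hcs hb hfix))
    have h1 := D.J_comm y hy (rproj b) hp Ω
    rw [D.J_omega, hJ] at h1
    rw [h1]
    have h2 := D.J_inner Ω (rproj b (D.J (y Ω)))
    rw [D.J_omega, inner_proj hps, Fixed.inner_J_left D, hJ, inner_proj hps] at h2
    exact h2.symm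

end Vale.Agent.P132.Scalar
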